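import Crest.Agent.R290.Hard
import Crest.Agent.R290.Ram

/-!
# Row 290: diagonalisation
-/

set_option autoImplicit false

namespace Crest.Agent.R290

open Crest.Agent.Lib.PolyTime Rules Turing Crest.WLRefine

theorem sq_le_two_pow {j : ℕ} (hj : 4 ≤ j) : j * j ≤ 2 ^ j := by
  induction j, hj using Nat.le_induction with
  | base => norm_num
  | succ j hj ih => rw [pow_succ]; nlinarith

theorem size_int_two_pow (j : ℕ) : size ((2 ^ j : ℕ) : ℤ) = j + 2 := by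
  rw [size_int, Int.natAbs_natCast, Nat.size_pow]

theorem size_int_nat {n L : ℕ} (h : n < 2 ^ L) : size (n : ℤ) ≤ L + 1 := by
  rw [size_int, Int.natAbs_natCast]
  have := Nat.size_le.2 h
  omega

theorem ar1 {α β j : ℕ} (h : α + β + 4 ≤ j) : α * j + β ≤ 2 ^ j := by
  have := sq_le_two_pow (j := j) (by omega)
  nlinarith

theorem ar2 {a j L : ℕ} (hj : 1 ≤ j) (h : L < 2 * a * (j + 1)) : L + 1 ≤ j * (4 * a) := by
  nlinarith

theorem ar3 {C X T N : ℕ} (hX : 1 ≤ X) (hT : T ≤ X) (h : 2 * C ≤ N) : C * T + C ≤ X * N := by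
  have : C * T ≤ C * X := Nat.mul_le_mul_left _ hT
  nlinarith

theorem ar4 {s t B a j r L u v m q C D N : ℕ} (h1 : t ≤ B * (2 * a * (j + 1) + 2) + B) (h2 : u = j + 2)
    (h3 : v ≤ L + 1 + 1) (h4 : L < 2 * a * (j + 1)) (h5 : m = j * q)
    (h6 : (2 * (B * (2 * a)) + 2 + 4 * a + q) * j +
      (2 * s + 2 * (B * (2 * a + 2) + B) + 2 * r + 4 * a + 2 * C + 2 * D + 40) ≤ N) :
    2 * s + 1 + (2 * t + 1 + (2 * r + 1 + (2 * u + 1 + (2 * v + 1 + m)))) + 1 ≤ N := by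
  nlinarith

theorem ar5 {s l r N : ℕ} (h1 : l + 1 ≤ N) (h2 : 2 * s + 2 * r + 40 ≤ N) :
    2 * s + 1 + (2 * (3 * l) + 1 + (2 * r + 1 + N)) + 2 ≤ N * N := by
  nlinarith

theorem ar6 {P s N : ℕ} (h1 : s + 1 ≤ N) (h2 : N ≤ P) (h3 : 3 ≤ N) : P + s + 2 ≤ P * N := by
  nlinarith

theorem ar7 {C X N : ℕ} (hX : 1 ≤ X) (h : 2 * C + 1 ≤ N) : C * X + C + 1 ≤ X * N := by
  nlinarith

theorem diag {κ : Type} [Enc κ] (U : κ × List Bool × ℕ → Bool) (hU : PT U) :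
    ∃ c : ℝ, 0 < c ∧ ∃ k₀ : ℕ, ∀ k ≥ k₀, ∀ r, k ≤ r + 1 → ∀ (cd : ℕ → κ) (B : ℕ),
      (∀ n, size (cd n) ≤ B * Nat.clog 2 (n + 2) + B) → ∀ (T : ℕ → ℕ) (C : ℕ),
      (∀ (n : ℕ) (G H : Fin n → Fin n → Bool), SimpleConnDiamTwo G → SimpleConnDiamTwo H →
        ∀ t, C * T n + C ≤ t →
          (U (cd n, adjMatrixCode G ++ adjMatrixCode H, t) = true ↔ BP (r + 1) G H)) →
      ∃ n₀ : ℕ, ∀ n ≥ n₀, (n : ℝ) ^ (c * k) ≤ T n := by
  obtain ⟨Rd, sz, hRd, hsz, hD⟩ := exists_dense_red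
  obtain ⟨ps, hps⟩ := PB.of_PT hsz
  obtain ⟨a₀, ha₀⟩ := R317.poly_le_pow ps
  let F : ℕ × (SM × κ × ℕ × ℤ × ℤ × ℕ) → Bool := fun p =>
    U (p.2.2.1, Rd ((p.2.1, enc p.2, p.2.2.2.1, min p.2.2.2.2.1.toNat p.1), false,
        min p.2.2.2.2.2.1.toNat p.1) ++
      Rd ((p.2.1, enc p.2, p.2.2.2.1, min p.2.2.2.2.1.toNat p.1), true,
        min p.2.2.2.2.2.1.toNat p.1), p.1)
  have hF : PT F := by
    have h1 : PT fun p : ℕ × (SM × κ × ℕ × ℤ × ℤ × ℕ) => (enc p.2 : List Bool) :=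
      PT.encBits (by fun_prop)
    have h2 : PT fun p : ℕ × (SM × κ × ℕ × ℤ × ℤ × ℕ) => min p.2.2.2.2.1.toNat p.1 :=
      PT.toNat_min (by fun_prop) (by fun_prop)
    have h3 : PT fun p : ℕ × (SM × κ × ℕ × ℤ × ℤ × ℕ) => min p.2.2.2.2.2.1.toNat p.1 :=
      PT.toNat_min (by fun_prop) (by fun_prop)
    have h4 : PT fun p : ℕ × (SM × κ × ℕ × ℤ × ℤ × ℕ) =>
        ((p.2.1, enc p.2, p.2.2.2.1, min p.2.2.2.2.1.toNat p.1) : Inp) :=
      PT.pair (by fun_prop) (PT.pair h1 (PT.pair (by fun_prop) h2))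
    exact hU.comp (PT.pair (by fun_prop) (PT.pair (PT.append
      (hRd.comp (PT.pair h4 (PT.pair (PT.const _) h3)))
      (hRd.comp (PT.pair h4 (PT.pair (PT.const _) h3)))) (by fun_prop)))
  obtain ⟨MD, ea, eb, d₀, hMD⟩ :=
    pad_machine (fun e : SM × κ × ℕ × ℤ × ℤ × ℕ => e.2.2.2.2.2) (by fun_prop) F hF
  obtain ⟨TD, CD, hTD, hfin⟩ := tm2_final MD ea eb
  obtain ⟨a, ha⟩ : ∃ a, a = a₀ + 1 := ⟨_, rfl⟩
  obtain ⟨d, hd⟩ : ∃ d, d = d₀ + 1 := ⟨_, rfl⟩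
  have ha1 : 1 ≤ a := by omega
  have hd1 : 1 ≤ d := by omega
  have hq : 0 < 16 * (a * d) := by positivity
  refine ⟨1 / (16 * (a * d) : ℕ), by positivity, 16 * (a * d) + 8 * d + 20,
    fun k hk r hr cd B hB T C hT => ?_⟩
  obtain ⟨p, hp⟩ : ∃ p, p = k / (16 * (a * d)) + 1 := ⟨_, rfl⟩
  have hp1 : 1 ≤ p := hp ▸ Nat.le_add_left 1 _
  -- a linear bound for the size of the input of the diagonal machine
  obtain ⟨β, hβ⟩ : ∃ β, β = 2 * size TD + 2 * (B * (2 * a + 2) + B) + 2 * r + 4 * a + 2 * C +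
    2 * CD + 40 := ⟨_, rfl⟩
  obtain ⟨α, hα⟩ : ∃ α, α = 2 * (B * (2 * a)) + 2 + 4 * a + (4 * (a * p) + 1) := ⟨_, rfl⟩
  refine ⟨2 ^ (2 * a * (α + β + 4)), fun n hn => ?_⟩
  by_contra hlt
  rw [not_le] at hlt
  have hn0 : n ≠ 0 := by
    have : 0 < 2 ^ (2 * a * (α + β + 4)) := by positivity
    omega
  obtain ⟨L, hL⟩ : ∃ L, L = Nat.log 2 n := ⟨_, rfl⟩
  have hL1 : 2 ^ L ≤ n := hL ▸ Nat.pow_log_le_self 2 hn0
  have hL2 : n < 2 ^ (L + 1) := hL ▸ Nat.lt_pow_succ_log_self (by norm_num) n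
  have hL3 : 2 * a * (α + β + 4) ≤ L := hL ▸ Nat.le_log_of_pow_le (by norm_num) hn
  obtain ⟨j, hj⟩ : ∃ j, j = L / (2 * a) := ⟨_, rfl⟩
  have hj1 : 2 * a * j ≤ L := hj ▸ Nat.mul_div_le L (2 * a)
  have hj2 : L < 2 * a * (j + 1) := hj ▸ Nat.lt_mul_div_succ L (by omega)
  have hj3 : α + β + 4 ≤ j := by
    rw [hj, Nat.le_div_iff_mul_le (by omega)]; linarith
  obtain ⟨N, hN⟩ : ∃ N, N = 2 ^ j := ⟨_, rfl⟩
  have hNl : α * j + β ≤ N := hN ▸ ar1 hj3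
  have hβN : β ≤ N := by omega
  have hN1 : N ^ (2 * a) ≤ n := by
    rw [hN, ← pow_mul]
    exact (Nat.pow_le_pow_right (by norm_num) (by linarith)).trans hL1
  have hN2 : n ≤ N ^ (4 * a) := by
    rw [hN, ← pow_mul]
    exact hL2.le.trans (Nat.pow_le_pow_right (by norm_num) (ar2 (by omega) hj2))
  have hNpos : 1 ≤ N := by omega
  have hTn : T n ≤ N ^ (4 * (a * p)) := by
    have h1 : (1 / (16 * (a * d) : ℕ) : ℝ) * k ≤ p := by
      rw [one_div, inv_mul_le_iff₀ (by positivity)]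
      have := Nat.lt_mul_div_succ k hq
      rw [← hp] at this
      exact_mod_cast this.le
    have h2 : (n : ℝ) ^ ((1 / (16 * (a * d) : ℕ) : ℝ) * k) ≤ (n : ℝ) ^ (p : ℝ) :=
      Real.rpow_le_rpow_of_exponent_le (by exact_mod_cast Nat.one_le_iff_ne_zero.2 hn0) h1
    rw [Real.rpow_natCast] at h2
    have h3 : T n ≤ n ^ p := by exact_mod_cast (hlt.le.trans h2)
    calc T n ≤ (N ^ (4 * a)) ^ p := h3.trans (Nat.pow_le_pow_left hN2 _)
      _ = _ := by rw [← pow_mul, mul_assoc]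
  obtain ⟨m, hm⟩ : ∃ m, m = j * (4 * (a * p) + 1) := ⟨_, rfl⟩
  have hpad : 2 ^ m = N ^ (4 * (a * p) + 1) := by rw [hm, hN, ← pow_mul]
  have hX : 1 ≤ N ^ (4 * (a * p)) := Nat.one_le_pow _ _ hNpos
  have hap : a ≤ a * p := Nat.le_mul_of_pos_right _ hp1
  have hpad1 : C * T n + C ≤ 2 ^ m := by
    rw [hpad, pow_succ]
    exact ar3 hX hTn (by omega)
  have hpad2 : n ≤ 2 ^ m := by
    rw [hpad]; exact hN2.trans (Nat.pow_le_pow_right hNpos (by omega))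
  have hpad3 : N ≤ 2 ^ m := by
    rw [hpad]; exact (pow_one N).ge.trans (Nat.pow_le_pow_right hNpos (by omega))
  obtain ⟨e, he⟩ : ∃ e : SM × κ × ℕ × ℤ × ℤ × ℕ, e = (TD, cd n, r, (N : ℤ), (n : ℤ), m) := ⟨_, rfl⟩
  have hse : size e + 1 ≤ N := by
    have h1 : size (N : ℤ) = j + 2 := by rw [hN, size_int_two_pow]
    have h2 : size (n : ℤ) ≤ L + 1 + 1 := size_int_nat hL2
    have h3 : Nat.clog 2 (n + 2) ≤ L + 2 := by
      rw [Nat.clog_le_iff_le_pow (by norm_num)]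
      have : 1 ≤ 2 ^ L := Nat.one_le_two_pow
      rw [pow_succ] at hL2
      rw [pow_succ, pow_succ]; omega
    have h4 : size (cd n) ≤ B * (2 * a * (j + 1) + 2) + B :=
      (hB n).trans (by gcongr; omega)
    rw [he]
    simp only [size_prod, size_nat]
    exact ar4 h4 h1 h2 hj2 hm (by rw [← hα, ← hβ]; exact hNl)
  have hk3 : 3 ≤ r := by omega
  have hwl : (enc e : List Bool).length + 1 ≤ N := hse
  have hszn : sz (TD, enc e, r, N) ≤ n := by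
    have h1 : size ((TD, enc e, r, N) : Inp) + 2 ≤ N * N := by
      rw [size_prod TD, size_prod (enc e : List Bool), size_prod r, size_nat, size_nat,
        size_list_bool]
      exact ar5 hwl (by omega)
    calc sz (TD, enc e, r, N) ≤ (size ((TD, enc e, r, N) : Inp) + 2) ^ a₀ := (hps _).trans (ha₀ _)
      _ ≤ (N * N) ^ a := (Nat.pow_le_pow_left h1 _).trans
          (Nat.pow_le_pow_right (by positivity) (by omega))
      _ = N ^ (2 * a) := by rw [← sq, ← pow_mul]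
      _ ≤ n := hN1
  obtain ⟨G, H, hG, hH, eG, eH, h1, -⟩ := hD TD (enc e) r N n hTD hk3 (by omega) hwl hszn
  have hFe : F (2 ^ m, e) = U (cd n, adjMatrixCode G ++ adjMatrixCode H, 2 ^ m) := by
    rw [← eG, ← eH]
    simp only [F, he, Int.toNat_natCast, min_eq_left hpad2, min_eq_left hpad3]
  have hrun := hMD e
  have hme : e.2.2.2.2.2 = m := by rw [he]
  simp only [hme] at hrun
  have hfe := hfin (enc e) _ _ hrun r N hk3 (by omega) hwl (by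
    have h2 : 2 ^ m + size e + 2 ≤ N ^ (4 * (a * p) + 2) := by
      have : N ^ (4 * (a * p) + 2) = 2 ^ m * N := by rw [hpad, ← pow_succ]
      rw [this]; exact ar6 hse hpad3 (by omega)
    have h3 : (2 ^ m + size e + 2) ^ d₀ ≤ N ^ ((4 * (a * p) + 2) * d) := by
      rw [pow_mul]
      exact (Nat.pow_le_pow_left h2 _).trans (Nat.pow_le_pow_right (by positivity) (by omega))
    have h4 : (4 * (a * p) + 2) * d + 1 ≤ (r - 1) / 2 := by
      have h5 : 16 * (a * d) * (k / (16 * (a * d))) ≤ k := Nat.mul_div_le _ _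
      have h6 : (4 * (a * p) + 2) * d = 4 * ((a * d) * (k / (16 * (a * d)))) + 4 * (a * d) + 2 * d := by
        rw [hp]; ring
      rw [mul_assoc] at h5
      omega
    have h7 : 1 ≤ N ^ ((4 * (a * p) + 2) * d) := Nat.one_le_pow _ _ hNpos
    have h8 : 2 * CD + 1 ≤ N := by omega
    calc CD * (2 ^ m + size e + 2) ^ d₀ + CD + 1 ≤ CD * N ^ ((4 * (a * p) + 2) * d) + CD + 1 := by
          gcongr
      _ ≤ N ^ ((4 * (a * p) + 2) * d + 1) := by rw [pow_succ]; exact ar7 h7 h8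
      _ ≤ _ := Nat.pow_le_pow_right hNpos h4)
  have h2 := hT n G H hG hH _ hpad1
  rw [h1, hfe, hFe] at h2
  cases hu : U (cd n, adjMatrixCode G ++ adjMatrixCode H, 2 ^ m) <;> simp [hu] at h2

end Crest.Agent.R290
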