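import Crest.Agent.R290.Diag

/-!
# Row 290: the lower bounds for stack machines and word-RAM programs
-/

set_option autoImplicit false

namespace Crest.Agent.R290

open Crest.Agent.Lib.PolyTime Turing Crest.WLRefine Crest.WordRAM

theorem length_code {n : ℕ} (G : Fin n → Fin n → Bool) :
    (adjMatrixCode G).length = (Crest.Enc.natCode n).length + n * n := by
  rw [← mbBits_length G, ← List.length_append]; rfl

theorem lower_tm : ∃ c : ℝ, 0 < c ∧ ∃ k₀ : ℕ, ∀ k ≥ k₀, ∀ r, k ≤ r + 1 →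
    ∀ (g : diamTwoPairCodes → Bool),
      (∀ (n : ℕ) (G H : Fin n → Fin n → Bool) (hG : SimpleConnDiamTwo G) (hH : SimpleConnDiamTwo H),
        g ⟨_, n, G, H, hG, hH, rfl⟩ = true ↔ BP (r + 1) G H) →
      ∀ M : TM2ComputableInTime (fun x : diamTwoPairCodes => x.1) Computability.encodeBool g,
        ∃ n₀ : ℕ, ∀ n ≥ n₀, (n : ℝ) ^ (c * k) ≤ M.time (2 * ((Crest.Enc.natCode n).length + n * n)) := by
  obtain ⟨c, hc, k₀, h⟩ := diag (fun p : SM × List Bool × ℕ =>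
    p.1.acc (p.1.cell p.2.1 (p.2.1.length + p.2.2 + 2) (p.2.2 * (p.2.1.length + p.2.2 + 2) + 1)))
    (SM.pt_acc (by fun_prop) (SM.pt_cell (by fun_prop) (by fun_prop) (by fun_prop) (by fun_prop)))
  refine ⟨c, hc, k₀, fun k hk r hr g hg M => ?_⟩
  obtain ⟨T, C, -, hT⟩ := tm2_to_sm M.tm M.inputAlphabet M.outputAlphabet
  refine h k hk r hr (fun _ => T) (size T) (fun _ => Nat.le_add_left _ _) _ C
    fun n G H hG hH t ht => ?_
  rw [← hg n G H hG hH]
  have h1 := M.outputsFun ⟨_, n, G, H, hG, hH, rfl⟩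
  have h2 : (adjMatrixCode G ++ adjMatrixCode H).length =
      2 * ((Crest.Enc.natCode n).length + n * n) := by
    rw [List.length_append, length_code, length_code]; ring
  simp only [h2] at h1
  rw [hT _ _ _ ⟨h1⟩ t _ ht le_rfl]

theorem run_halted (P : Program) (w : ℕ) (ρ : ℕ → ℕ) (x : List ℕ) {T t : ℕ}
    (h : (run P w ρ x T).halted = true) (ht : T ≤ t) : run P w ρ x t = run P w ρ x T := by
  induction t, ht using Nat.le_induction with
  | base => rfl
  | succ t _ ih =>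
    have : run P w ρ x (t + 1) = step P w ρ (run P w ρ x t) := Function.iterate_succ_apply' _ _ _
    rw [this, ih, step, if_pos h]

theorem lower_ram : ∃ c : ℝ, 0 < c ∧ ∃ k₀ : ℕ, ∀ k ≥ k₀, ∀ r, k ≤ r + 1 → ∀ (c₀ : ℕ) (P : Program)
    (T : ℕ → ℕ), (∀ (n : ℕ) (G H : Fin n → Fin n → Bool), SimpleConnDiamTwo G → SimpleConnDiamTwo H →
      (run P (c₀ * Nat.clog 2 (n + 2)) (fun _ => 0)
        ((adjMatrixCode G ++ adjMatrixCode H).map fun b => if b then 1 else 0) (T n)).halted = true ∧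
      ((run P (c₀ * Nat.clog 2 (n + 2)) (fun _ => 0)
        ((adjMatrixCode G ++ adjMatrixCode H).map fun b => if b then 1 else 0) (T n)).output = [1] ↔
        BP (r + 1) G H)) → ∃ n₀ : ℕ, ∀ n ≥ n₀, (n : ℝ) ^ (c * k) ≤ T n := by
  obtain ⟨U, hU, hR⟩ := exists_simRAM
  obtain ⟨c, hc, k₀, h⟩ := diag U hU
  refine ⟨c, hc, k₀, fun k hk r hr c₀ P T hP => ?_⟩
  obtain ⟨cd, hcd⟩ := hR P
  refine h k hk r hr (fun n => (cd, c₀ * Nat.clog 2 (n + 2))) (2 * size cd + 1 + c₀) (fun n => ?_) T 1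
    fun n G H hG hH t ht => ?_
  · rw [size_prod, size_nat]; nlinarith [Nat.zero_le (size cd * Nat.clog 2 (n + 2))]
  · rw [hcd, run_halted _ _ _ _ (hP n G H hG hH).1 (by omega)]
    exact (hP n G H hG hH).2

theorem mem_joint {k n : ℕ} {G H : Fin n → Fin n → Bool} (hG : IsSimple G) (hH : IsSimple H) :
    adjMatrixCode G ++ adjMatrixCode H ∈ jointEquivLang k ↔ JEquiv k G H :=
  ⟨fun ⟨_, _, _, _, _, _, he, e⟩ => code_inj₂ (fun _ _ G H => JEquiv k G H) e he,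
    fun h => ⟨n, n, G, H, hG, hH, h, rfl⟩⟩

theorem mem_sep {k n : ℕ} {G H : Fin n → Fin n → Bool} (hG : IsSimple G) (hH : IsSimple H) :
    adjMatrixCode G ++ adjMatrixCode H ∈ sepEquivLang k ↔ SEquiv k G H :=
  ⟨fun ⟨_, _, _, _, _, _, he, e⟩ => code_inj₂ (fun _ _ G H => SEquiv k G H) e he,
    fun h => ⟨n, n, G, H, hG, hH, h, rfl⟩⟩

end Crest.Agent.R290
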