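import Crest.Agent.R317.Pad
import Crest.Prelude.Def_ExpTime

/-!
# Row 290: exponential padding

A `PT` function of a unary pad `2 ^ m` and the input is computed in time polynomial in the pad.
Use `Crest.Agent.R317.iter_scale` with the doubling step `(n, a) ↦ (2 * n, a)` iterated `m a` times,
exactly as in `Crest.Agent.R317.timeBound_of_pad`.
-/

set_option autoImplicit false

namespace Crest.Agent.R290

open Turing Crest.Agent.Lib.PolyTime Crest.ExpTime

/-- The machine reads the code `enc a` itself (recover it from `rdCode (fun _ => true) id (enc a)` by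
`pairUp`, then `PT.rawMk`), and outputs the one-bit list `[F (2 ^ m a, a)]`. -/
theorem pad_machine {α : Type} [Enc α] (m : α → ℕ) (hm : PT m) (F : ℕ × α → Bool) (hF : PT F) :
    ∃ (M : FinTM2) (ea : M.Γ M.k₀ ≃ Bool) (eb : M.Γ M.k₁ ≃ Bool) (d : ℕ), ∀ a,
      Nonempty (TM2OutputsInTime M ((enc a).map ea.symm) (some [eb.symm (F (2 ^ m a, a))])
        ((2 ^ m a + size a + 2) ^ d)) := by
  have hx : ∀ x : List Bool, (pairUp (rdCode (fun _ => true) id x).reverse).map Prod.snd = x := by
    intro x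
    simp [rdCode, pairUp_flatMap, Function.comp_def]
  have hin : PTR (fun a : α => rdCode (fun _ => true) id (enc a)) (enc : α → List Bool) := by
    have h₁ : PT fun r : Raw => Raw.mk ((pairUp r.bits.reverse).map Prod.snd) :=
      PT.rawMk (PT.map (f := fun _ (p : Bool × Bool) => p.2) (by fun_prop)
        (PT.rawBits PT.id').reverse.pairUp)
    exact (PTR.restrict h₁ fun a => Raw.mk (rdCode (fun _ => true) id (enc a))).congr
      fun a => hx (enc a)
  have hl : ∀ x : List Bool, (rdCode (fun _ => true) id x).length = 2 * x.length := by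
    intro x
    unfold rdCode
    induction x with
    | nil => rfl
    | cons g x ih => simp at ih ⊢; omega
  have hit : ∀ (a : α) (i : ℕ), (fun s : ℕ × α => (s.1 * 2, s.2))^[i] (1, a) = (2 ^ i, a) := by
    intro a i
    induction i with
    | zero => rfl
    | succ i ih => rw [Function.iterate_succ_apply', ih, pow_succ]
  have hs : PT fun s : ℕ × α => (s.1 * 2, s.2) := by fun_prop
  have h0 : PT fun a : α => ((1 : ℕ), a) := by fun_prop
  have hc : ∀ a : α, (enc (m a)).length = m a := fun a => size_nat _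
  obtain ⟨K, _, _, c, τ, ⟨p, hp⟩, hex⟩ := R317.iter_scale (β := fun a : α => 2 ^ m a + size a)
    (ea := fun a => rdCode (fun _ => true) id (enc a))
    (((PBy.const 2).mul PBy.self).of_le fun a => by
      rw [hl]; exact Nat.mul_le_mul_left _ (Nat.le_add_left _ _)) (es := enc) hs (hin.trans hm)
    (hin.trans h0) (B := fun a => 2 * (2 ^ m a + size a) + 1)
    (((PBy.const 2).mul PBy.self).add (PBy.const 1))
    (fun a i hi => by
      rw [hc] at hi
      have h1 : 2 ^ i ≤ 2 ^ m a := Nat.pow_le_pow_right (by omega) hi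
      rw [hit]
      change size _ ≤ _
      rw [size_prod, size_nat]
      omega)
    (G := fun s => enc (F s)) hF
  obtain ⟨d, hd⟩ := R317.poly_le_pow (Polynomial.X + 2 + p)
  refine ⟨machine (fun _ => true) id c, Equiv.refl _, Equiv.refl _, d, fun a => ?_⟩
  have h₁ := (hex a).mono (hp a)
  rw [hc, hit] at h₁
  obtain ⟨h⟩ := machine_outputs (fun _ => true) id c (enc a) _ _ h₁
  have h3 := hd (2 ^ m a + size a)
  simp only [Polynomial.eval_add, Polynomial.eval_X, Polynomial.eval_ofNat] at h3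
  have e₁ : List.map (Equiv.refl Bool).symm (enc a) = enc a := List.map_id' _
  refine ⟨e₁.symm ▸ ⟨h.toEvalsTo, h.steps_le_m.trans ?_⟩⟩
  have : (enc a).length = size a := rfl
  have : 0 ≤ 2 ^ m a := Nat.zero_le _
  beta_reduce
  omega

/-- Sketch: `pad_machine` with `α = Raw`; `m x ≤ p (|x|)`, so the time is at most
`c * 2 ^ (|x| ^ k) + c` (`R317.poly_le_pow`; small lengths are absorbed by `c`). -/
theorem inEXP_of_pad (L : Set (List Bool)) (m : List Bool → ℕ) (hm : PT m)
    (F : ℕ × List Bool → Bool) (hF : PT F) (h : ∀ x, x ∈ L ↔ F (2 ^ m x, x) = true) : InEXP L := by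
  have hb : PT fun r : Raw => r.bits := PT.rawBits PT.id'
  obtain ⟨M, ea, eb, d, hM⟩ := pad_machine (α := Raw) (fun r => m r.bits) (hm.comp hb)
    (fun p => F (p.1, p.2.bits)) (hF.comp (PT.pair (PT.fst PT.id') (hb.comp (PT.snd PT.id'))))
  obtain ⟨p, hp⟩ := PB.of_PT (hm.comp hb)
  obtain ⟨e, he⟩ := R317.poly_le_pow (Polynomial.C d * (p + Polynomial.X + 2))
  refine ⟨2 * e, fun x => F (2 ^ m x, x), 2 ^ 3 ^ e,
    ⟨⟨⟨M, ea, eb⟩, fun n => 2 ^ 3 ^ e * 2 ^ n ^ (2 * e) + 2 ^ 3 ^ e, fun x => ?_⟩,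
      fun _ => le_rfl⟩, h⟩
  have h1 := Classical.choice (hM (Raw.mk x))
  refine ⟨h1.toEvalsTo, h1.steps_le_m.trans ?_⟩
  have h2 : m x ≤ p.eval x.length := hp (Raw.mk x)
  have h3 := he x.length
  simp only [Polynomial.eval_add, Polynomial.eval_mul, Polynomial.eval_C, Polynomial.eval_X,
    Polynomial.eval_ofNat] at h3
  change (2 ^ m x + x.length + 2) ^ d ≤ 2 ^ 3 ^ e * 2 ^ x.length ^ (2 * e) + 2 ^ 3 ^ e
  generalize x.length = n at h2 h3
  have h4 : 2 ^ m x + n + 2 ≤ 2 ^ (p.eval n + n + 2) := by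
    have a1 : 2 ^ m x ≤ 2 ^ (p.eval n + n) := Nat.pow_le_pow_right (by omega) (by omega)
    have a2 : 2 ^ n ≤ 2 ^ (p.eval n + n) := Nat.pow_le_pow_right (by omega) (by omega)
    have a3 : n < 2 ^ n := Nat.lt_two_pow_self
    rw [pow_succ, pow_succ]
    omega
  have h5 : (n + 2) ^ e ≤ 3 ^ e + n ^ (2 * e) := by
    rcases Nat.lt_or_ge n 2 with hn | hn
    · exact (Nat.pow_le_pow_left (by omega) _).trans (Nat.le_add_right _ _)
    · rw [pow_mul]
      exact (Nat.pow_le_pow_left (by nlinarith) _).trans (Nat.le_add_left _ _)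
  calc _ ≤ (2 ^ (p.eval n + n + 2)) ^ d := Nat.pow_le_pow_left h4 _
    _ = 2 ^ (d * (p.eval n + n + 2)) := by rw [← pow_mul, mul_comm]
    _ ≤ 2 ^ (3 ^ e + n ^ (2 * e)) := Nat.pow_le_pow_right (by omega) (h3.trans h5)
    _ ≤ _ := by rw [pow_add]; exact Nat.le_add_right _ _

end Crest.Agent.R290
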