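import Crest.Agent.R290.GameB
import Crest.Agent.R290.BPAlg
import Crest.Agent.R290.Pad
import Crest.Agent.R290.MemberAux

/-!
# Row 290: the three problems are in EXPTIME

Plan. `inEXP_of_pad` with `m x = 2 * |x| + 2` or similar (`n * n ≤ |x|` for a well-formed input).
Parsing: `readNat` gives `k : ℤ` (keep it binary) and `n : ℤ` (make it unary by `PT.toNat_min` with
`|x|`), `take (n * n)` the bits `g`; check well-formedness by recomputing the code and comparing
(`natCode k ++ natCode n ++ g ++ natCode m ++ h = x`, lengths of `g`, `h`; equality of bit lists is `PT` through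
lengths and `getD`). `adjMatrixCode (mat n g) = natCode n ++ g` when `g.length = n * n`, and every matrix is
`mat n` of its bit list; codes are uniquely readable (`readNat_natCode`). If `n ≠ m` the graphs are not
equivalent (`BP.nonempty_equiv`). Equivalence is `BP (k + 1)` (`jEquiv_iff`); identification is
`ident_iff`, where `AdjIso G H ↔ BP (n + 1) G H` (`BP.iso`, `BP.of_iso`) and `H` ranges over all
bit lists of length `n * n` (at most `pad` many). Connectedness: `0 < n` and no set `s < 2 ^ n`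
containing vertex `0`, missing a vertex and closed under adjacency (or iterate reachability `n` times).
-/

set_option autoImplicit false

namespace Crest.Agent.R290

open Crest.WLRefine Crest.ExpTime Crest.Agent.Lib.PolyTime Crest.Enc

theorem mb_le_pad (n : ℕ) : 2 ^ n ≤ 2 ^ (n * n + n) := Nat.pow_le_pow_right (by omega) (by omega)

theorem mb_inEXP_pairs (R : ∀ n : ℕ, (Fin n → Fin n → Bool) → Prop)
    (Q : ℕ × ℕ × List Bool → Bool) (hQ : PT Q)
    (hR : ∀ pad n g, 2 ^ n ≤ pad → (Q (pad, n, g) = true ↔ R n (mat n g))) :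
    InEXP {w | ∃ (k n : ℕ) (G H : Fin n → Fin n → Bool), 2 ≤ k ∧ R n G ∧ R n H ∧ JEquiv k G H ∧
      w = natCode k ++ adjMatrixCode G ++ adjMatrixCode H} := by
  obtain ⟨A, hA, hA'⟩ := exists_bpAlg
  refine inEXP_of_pad _
    (fun x => (mbRead (readNat x).2).1 * (mbRead (readNat x).2).1 + (mbRead (readNat x).2).1)
    (by fun_prop)
    (fun p => decide (p.2 = natCode (readNat p.2).1.natAbs ++
        mbCode (mbRead (readNat p.2).2).1 (mbRead (readNat p.2).2).2.1 ++
        mbCode (mbRead (readNat p.2).2).1 (mbRead (mbRead (readNat p.2).2).2.2).2.1) &&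
      decide (2 ≤ (readNat p.2).1) &&
      Q (p.1, (mbRead (readNat p.2).2).1, (mbRead (readNat p.2).2).2.1) &&
      Q (p.1, (mbRead (readNat p.2).2).1, (mbRead (mbRead (readNat p.2).2).2.2).2.1) &&
      A (p.1, (readNat p.2).1 + 1, (mbRead (readNat p.2).2).1, (mbRead (readNat p.2).2).2.1,
        (mbRead (mbRead (readNat p.2).2).2.2).2.1)) (by fun_prop) fun x => ?_
  simp only [Bool.and_eq_true, decide_eq_true_eq, hR _ _ _ (mb_le_pad _), mbCode_eq]
  constructor
  · rintro ⟨k, n, G, H, hk, hG, hH, he, rfl⟩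
    have h1 : readNat (natCode k ++ adjMatrixCode G ++ adjMatrixCode H) =
        ((k : ℤ), adjMatrixCode G ++ adjMatrixCode H) := by
      rw [List.append_assoc, readNat_natCode]
    have h2 : mbRead (adjMatrixCode H) = (n, mbBits H ++ [], []) := by
      rw [← mbRead_code, List.append_nil]
    rw [h1]
    dsimp only
    rw [mbRead_code]
    dsimp only
    rw [h2]
    dsimp only
    rw [← Nat.cast_succ, hA' _ _ _ _ _ le_rfl, mat_mbBits, mat_mbBits]
    exact ⟨⟨⟨⟨rfl, by exact_mod_cast hk⟩, hG⟩, hH⟩, (jEquiv_iff hk).1 he⟩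
  · rintro ⟨⟨⟨⟨hx, hk⟩, hG⟩, hH⟩, he⟩
    obtain ⟨k, hk'⟩ : ∃ k : ℕ, (readNat x).1 = k := ⟨_, (Int.toNat_of_nonneg (by omega)).symm⟩
    rw [hk'] at hx hk he
    rw [← Nat.cast_succ, hA' _ _ _ _ _ le_rfl] at he
    have hk2 : 2 ≤ k := by exact_mod_cast hk
    exact ⟨k, _, _, _, hk2, hG, hH, (jEquiv_iff hk2).2 he, hx⟩

theorem inEXP_varDim : InEXP varDimEquivLang := by
  convert mb_inEXP_pairs (fun _ G => IsSimple G) (fun p => mbSimple p.2.1 p.2.2) (by fun_prop)
    (fun _ n g _ => mbSimple_iff n g) using 1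
  ext w
  constructor
  · rintro ⟨k, n, m, G, H, hk, hG, hH, he, rfl⟩
    obtain ⟨e⟩ := ((jEquiv_iff hk).1 he).nonempty_equiv (by omega)
    have hnm : n = m := by simpa using Fintype.card_congr e
    subst hnm
    exact ⟨k, n, G, H, hk, hG, hH, he, rfl⟩
  · rintro ⟨k, n, G, H, h⟩
    exact ⟨k, n, n, G, H, h⟩

theorem inEXP_subcubic : InEXP subcubicVarDimEquivLang := by
  convert mb_inEXP_pairs (fun _ G => SimpleConnSubcubic G)
    (fun p => mbSimple p.2.1 p.2.2 && (mbConn p.1 p.2.1 p.2.2 && mbDeg p.2.1 p.2.2)) (by fun_prop)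
    (fun _ n g hp => by
      simp only [Bool.and_eq_true, mbSimple_iff, mbConn_iff hp, mbDeg_iff]
      rfl) using 1
  ext w
  constructor
  · rintro ⟨k, n, G, H, hk, -, h⟩
    exact ⟨k, n, G, H, hk, h⟩
  · rintro ⟨k, n, G, H, hk, hG, h⟩
    exact ⟨k, n, G, H, hk, Fin.pos_iff_nonempty.2 hG.2.1.nonempty, hG, h⟩

theorem mb_adjIso_iff {n : ℕ} (G H : Fin n → Fin n → Bool) : AdjIso G H ↔ BP (n + 1) G H :=
  ⟨fun ⟨e, he⟩ => BP.of_iso e he _, fun h => h.iso (by simp)⟩

theorem mb_ident_iff {A : ℕ × ℤ × ℕ × List Bool × List Bool → Bool}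
    (hA : ∀ (pad K n : ℕ) (g h : List Bool), 2 ^ (n * n + n) ≤ pad →
      (A (pad, (K : ℤ), n, g, h) = true ↔ BP K (mat n g) (mat n h)))
    {k n : ℕ} {g : List Bool} (hG : IsSimple (mat n g)) (hk : 1 ≤ k) :
    ((List.range (2 ^ (n * n + n))).all fun s => !mbSimple n (mbOf n s) ||
      (!A (2 ^ (n * n + n), (k : ℤ) + 1, n, g, mbOf n s) ||
        A (2 ^ (n * n + n), (n : ℤ) + 1, n, g, mbOf n s))) = true ↔
      ∃ k', 1 ≤ k' ∧ k' ≤ k ∧ Identifies k' (mat n g) := by
  rw [ident_iff hG hk, ← Nat.cast_succ, ← Nat.cast_succ]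
  simp only [List.all_eq_true, List.mem_range, Bool.or_eq_true, Bool.not_eq_true',
    ← Bool.not_eq_true, ← imp_iff_not_or, mbSimple_iff, hA _ _ _ _ _ le_rfl, mb_adjIso_iff]
  refine ⟨fun h H => ?_, fun h s _ => h _⟩
  obtain ⟨s, hs, rfl⟩ := exists_mbOf H
  exact h s (hs.trans_le (Nat.pow_le_pow_right (by omega) (by omega)))

theorem inEXP_wlDim : InEXP wlDimLeLang := by
  obtain ⟨A, hA, hA'⟩ := exists_bpAlg
  refine inEXP_of_pad _
    (fun x => (mbRead (readNat x).2).1 * (mbRead (readNat x).2).1 + (mbRead (readNat x).2).1)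
    (by fun_prop)
    (fun p => decide (p.2 = natCode (readNat p.2).1.natAbs ++
        mbCode (mbRead (readNat p.2).2).1 (mbRead (readNat p.2).2).2.1) &&
      decide (1 ≤ (readNat p.2).1) && decide (0 < (mbRead (readNat p.2).2).1) &&
      mbSimple (mbRead (readNat p.2).2).1 (mbRead (readNat p.2).2).2.1 &&
      (List.range p.1).all fun s =>
        !mbSimple (mbRead (readNat p.2).2).1 (mbOf (mbRead (readNat p.2).2).1 s) ||
        (!A (p.1, (readNat p.2).1 + 1, (mbRead (readNat p.2).2).1, (mbRead (readNat p.2).2).2.1,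
            mbOf (mbRead (readNat p.2).2).1 s) ||
          A (p.1, ((mbRead (readNat p.2).2).1 : ℤ) + 1, (mbRead (readNat p.2).2).1,
            (mbRead (readNat p.2).2).2.1, mbOf (mbRead (readNat p.2).2).1 s)))
    (by fun_prop) fun x => ?_
  simp only [Bool.and_eq_true, decide_eq_true_eq, mbSimple_iff, mbCode_eq]
  constructor
  · rintro ⟨k, n, G, hk, hn, hG, he, rfl⟩
    have h2 : mbRead (adjMatrixCode G) = (n, mbBits G ++ [], []) := by
      rw [← mbRead_code, List.append_nil]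
    rw [readNat_natCode]
    dsimp only
    rw [h2]
    dsimp only
    rw [mb_ident_iff hA' (by rwa [mat_mbBits]) hk, mat_mbBits]
    exact ⟨⟨⟨⟨rfl, by exact_mod_cast hk⟩, hn⟩, hG⟩, he⟩
  · rintro ⟨⟨⟨⟨hx, hk⟩, hn⟩, hG⟩, he⟩
    obtain ⟨k, hk'⟩ : ∃ k : ℕ, (readNat x).1 = k := ⟨_, (Int.toNat_of_nonneg (by omega)).symm⟩
    rw [hk'] at hx hk he
    have hk2 : 1 ≤ k := by exact_mod_cast hk
    rw [mb_ident_iff hA' hG hk2] at he
    exact ⟨k, _, _, hk2, hn, hG, he, hx⟩

end Crest.Agent.R290
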