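import Crest.Agent.R290.Red
import Crest.Agent.R290.DenseMain
import Crest.Agent.R290.SubCon
import Crest.Agent.R290.Member

/-!
# Row 290: EXPTIME-hardness
-/

set_option autoImplicit false

namespace Crest.Agent.R290

open Crest.Agent.Lib.PolyTime Rules Turing Crest.WLRefine Crest.ExpTime Crest.Enc

theorem code_inj {n m : ℕ} {G : Fin n → Fin n → Bool} {H : Fin m → Fin m → Bool} {r r' : List Bool}
    (h : adjMatrixCode G ++ r = adjMatrixCode H ++ r') : n = m ∧ HEq G H ∧ r = r' := by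
  have h1 := mbRead_code G r
  rw [h, mbRead_code] at h1
  simp only [Prod.mk.injEq] at h1
  obtain ⟨rfl, h2, rfl⟩ := h1
  refine ⟨rfl, heq_of_eq ?_, rfl⟩
  rw [← mat_mbBits G r', ← h2, mat_mbBits]

theorem natCode_inj {n m : ℕ} {r r' : List Bool} (h : natCode n ++ r = natCode m ++ r') :
    n = m ∧ r = r' := by
  have h1 := readNat_natCode n r
  rw [h, readNat_natCode] at h1
  simp only [Prod.mk.injEq, Nat.cast_inj] at h1
  exact ⟨h1.1.symm, h1.2.symm⟩

theorem code_inj₂ {n n' m' : ℕ} {G H : Fin n → Fin n → Bool} {G' : Fin n' → Fin n' → Bool}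
    {H' : Fin m' → Fin m' → Bool} (P : ∀ n m, (Fin n → Fin n → Bool) → (Fin m → Fin m → Bool) → Prop)
    (h : adjMatrixCode G ++ adjMatrixCode H = adjMatrixCode G' ++ adjMatrixCode H')
    (hP : P _ _ G' H') : P _ _ G H := by
  obtain ⟨rfl, h1, h2⟩ := code_inj h
  obtain ⟨rfl, h3, -⟩ := code_inj (r := []) (r' := []) (by simpa using h2)
  rwa [eq_of_heq h1, eq_of_heq h3]

/-- The machine with the complementary accepting set. -/
def SM.neg (M : SM) : SM :=
  (M.1, M.2.1, M.2.2.1, M.2.2.2.1, M.2.2.2.2.1, M.2.2.2.2.2.1, (List.range M.q).map fun a => !M.acc a)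

theorem SM.cell_neg (M : SM) (w : List Bool) (S A : ℕ) : M.neg.cell w S A = M.cell w S A := by
  induction A using Nat.strong_induction_on with
  | _ A ih =>
    rw [SM.cell, SM.cell.eq_1 M]
    split_ifs with h
    · rw [ih _ (by omega), ih _ (by omega), ih _ (by omega)]; rfl
    · rfl

theorem SM.final_neg {M : SM} (h : M.WF) (w : List Bool) (k N : ℕ) :
    M.neg.final w k N = !M.final w k N := by
  unfold SM.final
  rw [SM.cell_neg]
  have := SM.cell_lt h w (N ^ (k - (k - 1) / 2))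
    ((N ^ ((k - 1) / 2) - 1) * N ^ (k - (k - 1) / 2) + 1)
  change List.getD ((List.range M.q).map fun a => !M.acc a) _ false = _
  rw [List.getD_eq_getElem _ _ (by simpa using this)]
  simp

theorem exp_final {A : Set (List Bool)} (hA : InEXP A) (b : Bool) :
    ∃ (T : SM) (K : List Bool → ℕ), T.WF ∧ PT K ∧
      ∀ x, 3 ≤ K x ∧ (x ∈ A ↔ T.final x (K x) (x.length + 2) = b) := by
  obtain ⟨k, f, c, ⟨M, hM⟩, hf⟩ := hA
  obtain ⟨T, C, hT, h⟩ := tm2_final M.tm M.inputAlphabet M.outputAlphabet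
  have key : ∀ x, T.final x (2 * (x.length ^ k + (2 * C * c + C + 1)) + 1) (x.length + 2) = f x := by
    intro x
    refine h x (f x) (M.time x.length) ⟨M.outputsFun x⟩ _ _ (by omega) (by omega) (by omega) ?_
    have h1 : (2 * (x.length ^ k + (2 * C * c + C + 1)) + 1 - 1) / 2 =
        x.length ^ k + (2 * C * c + C + 1) := by omega
    rw [h1]
    have h2 : M.time x.length ≤ c * 2 ^ (x.length ^ k) + c := hM x.length
    have h3 : 2 * C * c + C + 1 ≤ 2 ^ (2 * C * c + C + 1) := Nat.lt_two_pow_self.le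
    have h4 : 1 ≤ 2 ^ (x.length ^ k) := Nat.one_le_two_pow
    calc C * M.time x.length + C + 1 ≤ C * (c * 2 ^ (x.length ^ k) + c) + C + 1 := by gcongr
      _ ≤ 2 ^ (x.length ^ k) * (2 * C * c + C + 1) := by nlinarith [Nat.zero_le (C * c)]
      _ ≤ 2 ^ (x.length ^ k) * 2 ^ (2 * C * c + C + 1) := by gcongr
      _ = 2 ^ (x.length ^ k + (2 * C * c + C + 1)) := (pow_add _ _ _).symm
      _ ≤ _ := Nat.pow_le_pow_left (by omega) _
  cases b with
  | true =>
    exact ⟨T, fun x => 2 * (x.length ^ k + (2 * C * c + C + 1)) + 1, hT, by fun_prop,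
      fun x => ⟨by beta_reduce; omega, by rw [key, hf]⟩⟩
  | false =>
    exact ⟨T.neg, fun x => 2 * (x.length ^ k + (2 * C * c + C + 1)) + 1, hT, by fun_prop,
      fun x => ⟨by beta_reduce; omega, by rw [SM.final_neg hT, key, hf]; simp⟩⟩

/-- The dense reduction from sweep machines. -/
theorem exists_dense_red : ∃ (Rd : Inp × Bool × ℕ → List Bool) (sz : Inp → ℕ), PT Rd ∧ PT sz ∧
    ∀ (M : SM) (w : List Bool) (k N n : ℕ), M.WF → 3 ≤ k → 2 ≤ N → w.length + 1 ≤ N →
      sz (M, w, k, N) ≤ n → ∃ G H : Fin n → Fin n → Bool,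
      SimpleConnDiamTwo G ∧ SimpleConnDiamTwo H ∧ Rd ((M, w, k, N), false, n) = adjMatrixCode G ∧
      Rd ((M, w, k, N), true, n) = adjMatrixCode H ∧ (BP (k + 1) G H ↔ M.final w k N = false) ∧
      ((∀ H' : Fin n → Fin n → Bool, IsSimple H' → BP (k + 1) G H' → AdjIso G H') ↔
        M.final w k N = true) := by
  obtain ⟨Cs, hCs, hC⟩ := exists_csys
  obtain ⟨Rd, sz, hRd, hsz, hD⟩ := exists_dense
  refine ⟨fun p => Rd (Cs p.1, p.2), fun a => sz (Cs a), by fun_prop, by fun_prop,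
    fun M w k N n hM hk hN hw hn => ?_⟩
  obtain ⟨hW, h1, h2, h3⟩ := hC M w k N hM hk hN hw
  obtain ⟨G, H, hG, hH, eG, eH, h4, h5⟩ := hD _ n hW hn
  refine ⟨G, H, hG, hH, eG, eH, ?_, ?_⟩
  · rw [h4 _ (by omega)]
    refine ⟨fun h => ?_, h2⟩
    by_contra hf
    exact h1 (h3 (by simpa using hf) _ h)
  · refine ⟨fun h => ?_, fun hf H' _ hb => ?_⟩
    · by_contra hf
      obtain ⟨e, he⟩ := h H hH.1 ((h4 _ (by omega)).2 (h2 (by simpa using hf)))
      exact h1 (((h4 ((Cs (M, w, k, N)).sys.T.card + 3) (by omega)).1 (BP.of_iso e he _)).solvable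
        (by omega))
    · obtain ⟨β', h6, h7⟩ := h5 _ (by omega) H' hb
      exact h7 (h3 hf β' h6)

theorem hard_varDim : EXPHard varDimEquivLang := by
  intro A hA
  obtain ⟨T, K, hT, hK, h⟩ := exp_final hA false
  obtain ⟨Rd, sz, hRd, hsz, hD⟩ := exists_dense_red
  refine ⟨fun x => natCode (K x) ++ Rd ((T, x, K x, x.length + 2), false, sz (T, x, K x, x.length + 2)) ++
    Rd ((T, x, K x, x.length + 2), true, sz (T, x, K x, x.length + 2)),
    PT.polyTime (PT.append (PT.append hK.natCode (by fun_prop)) (by fun_prop)), fun x => ?_⟩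
  obtain ⟨G, H, hG, hH, eG, eH, h1, -⟩ :=
    hD T x (K x) (x.length + 2) _ hT (h x).1 (by omega) (by omega) le_rfl
  have hk := (h x).1
  rw [(h x).2, ← h1, ← jEquiv_iff (by omega)]
  beta_reduce
  rw [eG, eH]
  refine ⟨fun he => ⟨K x, _, _, G, H, by omega, hG.1, hH.1, he, rfl⟩, ?_⟩
  rintro ⟨k, n, m, G', H', -, -, -, he, e⟩
  rw [List.append_assoc, List.append_assoc] at e
  obtain ⟨rfl, e'⟩ := natCode_inj e
  exact code_inj₂ (fun _ _ G H => JEquiv (K x) G H) e' he

theorem hard_subcubic : EXPHard subcubicVarDimEquivLang := by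
  intro A hA
  obtain ⟨T, K, hT, hK, h⟩ := exp_final hA false
  obtain ⟨Cs, hCs, hC⟩ := exists_csys
  obtain ⟨Rs, hRs, hS⟩ := exists_sub
  refine ⟨fun x => natCode (K x) ++ Rs (Cs (T, x, K x, x.length + 2), false) ++
    Rs (Cs (T, x, K x, x.length + 2), true),
    PT.polyTime (PT.append (PT.append hK.natCode (by fun_prop)) (by fun_prop)), fun x => ?_⟩
  have hk := (h x).1
  obtain ⟨hW, h1, h2, h3⟩ := hC T x (K x) (x.length + 2) hT hk (by omega) (by omega)
  obtain ⟨n, G, H, hn, hG, hH, eG, eH, h4⟩ := hS _ hW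
  have h5 : JEquiv (K x) G H ↔ T.final x (K x) (x.length + 2) = false := by
    rw [jEquiv_iff (by omega), h4 _ (by omega)]
    refine ⟨fun h => ?_, h2⟩
    by_contra hf
    exact h1 (h3 (by simpa using hf) _ h)
  rw [(h x).2, ← h5]
  beta_reduce
  rw [eG, eH]
  refine ⟨fun he => ⟨K x, _, G, H, by omega, hn, hG, hH, he, rfl⟩, ?_⟩
  rintro ⟨k, n, G', H', -, -, -, -, he, e⟩
  rw [List.append_assoc, List.append_assoc] at e
  obtain ⟨rfl, e'⟩ := natCode_inj e
  exact code_inj₂ (fun _ _ G H => JEquiv (K x) G H) e' he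

theorem hard_wlDim : EXPHard wlDimLeLang := by
  intro A hA
  obtain ⟨T, K, hT, hK, h⟩ := exp_final hA true
  obtain ⟨Rd, sz, hRd, hsz, hD⟩ := exists_dense_red
  refine ⟨fun x => natCode (K x) ++ Rd ((T, x, K x, x.length + 2), false, sz (T, x, K x, x.length + 2)),
    PT.polyTime (PT.append hK.natCode (by fun_prop)), fun x => ?_⟩
  obtain ⟨G, H, hG, hH, eG, eH, -, h1⟩ :=
    hD T x (K x) (x.length + 2) _ hT (h x).1 (by omega) (by omega) le_rfl
  have hk := (h x).1
  rw [(h x).2, ← h1, ← ident_iff hG.1 (by omega)]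
  beta_reduce
  rw [eG]
  refine ⟨fun he => ⟨K x, _, G, by omega, Fin.pos_iff_nonempty.2 hG.2.1.nonempty, hG.1, he, rfl⟩, ?_⟩
  rintro ⟨k, n, G', -, -, -, he, e⟩
  obtain ⟨rfl, e'⟩ := natCode_inj e
  obtain ⟨e1, e2, -⟩ := code_inj (r := []) (r' := []) (by simpa using e')
  subst e1
  rwa [eq_of_heq e2]

end Crest.Agent.R290
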